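import Mathlib

/-! Finitely presented groups: finite-index subgroups, products and extensions by finite groups. -/

namespace Vale.Agent.P192

open Subgroup

lemma ker_fng {H : Type*} [Group H] [hH : Group.IsFinitelyPresented H] {α : Type*} [Finite α]
    (ψ : FreeGroup α →* H) (hψ : Function.Surjective ψ) : ψ.ker.IsFinitelyNormallyGenerated := by
  obtain ⟨n, φ, hφ, S, hS, hSφ⟩ := hH.out
  choose u hu using fun i : Fin n => hψ (φ (FreeGroup.of i))
  choose v hv using fun a : α => hφ (ψ (FreeGroup.of a))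
  let A : FreeGroup (Fin n) →* FreeGroup α := FreeGroup.lift u
  let B : FreeGroup α →* FreeGroup (Fin n) := FreeGroup.lift v
  have hA : ψ.comp A = φ := by ext i; simp [A, hu]
  have hB : φ.comp B = ψ := by ext a; simp [B, hv]
  let R : Set (FreeGroup α) :=
    (A '' S) ∪ Set.range (fun a => (FreeGroup.of a)⁻¹ * A (B (FreeGroup.of a)))
  refine ⟨R, (hS.image _).union (Set.finite_range _), le_antisymm ?_ ?_⟩
  · refine normalClosure_le_normal ?_
    rintro x (⟨s, hs, rfl⟩ | ⟨a, rfl⟩)
    · have : s ∈ φ.ker := hSφ ▸ subset_normalClosure hs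
      simpa [← hA] using this
    · have h1 := DFunLike.congr_fun hA (B (FreeGroup.of a))
      simp only [MonoidHom.comp_apply] at h1
      have h2 := DFunLike.congr_fun hB (FreeGroup.of a)
      simp only [MonoidHom.comp_apply] at h2
      rw [SetLike.mem_coe, MonoidHom.mem_ker, map_mul, map_inv, h1, h2, inv_mul_cancel]
  · intro w hw
    have hq : (QuotientGroup.mk' (normalClosure R)).comp (A.comp B)
        = QuotientGroup.mk' (normalClosure R) := by
      ext a
      simp only [MonoidHom.comp_apply, QuotientGroup.mk'_apply]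
      rw [eq_comm, QuotientGroup.eq]
      exact subset_normalClosure (Or.inr ⟨a, rfl⟩)
    have hBw : B w ∈ normalClosure S := by
      rw [hSφ, MonoidHom.mem_ker, ← MonoidHom.comp_apply, hB]; exact hw
    have hle : normalClosure S ≤ (normalClosure R).comap A :=
      normalClosure_le_normal fun s hs => subset_normalClosure (Or.inl ⟨s, hs, rfl⟩)
    have h1 := DFunLike.congr_fun hq w
    simp only [MonoidHom.comp_apply, QuotientGroup.mk'_apply] at h1
    rw [← QuotientGroup.eq_one_iff, ← h1, QuotientGroup.eq_one_iff]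
    exact hle hBw

lemma extension {N W Q : Type*} [Group N] [Group W] [Group Q] [Finite Q]
    [hN : Group.IsFinitelyPresented N] (f : W →* Q) (hf : Function.Surjective f) (j : N →* W)
    (hj : Function.Injective j) (hr : j.range = f.ker) : Group.IsFinitelyPresented W := by
  obtain ⟨n, φ, hφ, S, hS, hSφ⟩ := hN.out
  have hker : ∀ w : W, f w = 1 → ∃ u : FreeGroup (Fin n), j (φ u) = w := by
    intro w hw
    have : w ∈ j.range := hr ▸ hw
    obtain ⟨x, rfl⟩ := this
    obtain ⟨u, rfl⟩ := hφ x
    exact ⟨u, rfl⟩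
  have hfj : ∀ x, f (j x) = 1 := fun x => by
    have : j x ∈ j.range := ⟨x, rfl⟩
    rwa [hr] at this
  choose t ht using hf
  choose u1 hu1 using fun (q : Q) (i : Fin n) =>
    hker (t q * j (φ (FreeGroup.of i)) * (t q)⁻¹) (by simp [hfj])
  choose u2 hu2 using fun q r : Q => hker (t q * t r * (t (q * r))⁻¹) (by simp [ht])
  obtain ⟨u0, hu0⟩ := hker (t 1) (ht 1)
  let e : FreeGroup (Fin n) →* FreeGroup (Fin n ⊕ Q) := FreeGroup.map Sum.inl
  let τ : Q → FreeGroup (Fin n ⊕ Q) := fun q => FreeGroup.of (Sum.inr q)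
  let ψ : FreeGroup (Fin n ⊕ Q) →* W :=
    FreeGroup.lift (Sum.elim (fun i => j (φ (FreeGroup.of i))) t)
  have hψe : ψ.comp e = j.comp φ := by ext i; simp [ψ, e]
  have hψe' : ∀ u, ψ (e u) = j (φ u) := fun u => DFunLike.congr_fun hψe u
  have hψτ : ∀ q, ψ (τ q) = t q := fun q => by simp [ψ, τ]
  let R : Set (FreeGroup (Fin n ⊕ Q)) :=
    (e '' S) ∪ Set.range (fun p : Q × Fin n =>
      τ p.1 * e (FreeGroup.of p.2) * (τ p.1)⁻¹ * (e (u1 p.1 p.2))⁻¹) ∪
    Set.range (fun p : Q × Q => τ p.1 * τ p.2 * (τ (p.1 * p.2))⁻¹ * (e (u2 p.1 p.2))⁻¹) ∪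
    {τ 1 * (e u0)⁻¹}
  let π := QuotientGroup.mk' (normalClosure R)
  have hR : ∀ x ∈ R, π x = 1 := fun x hx => by
    simpa [π, QuotientGroup.eq_one_iff] using subset_normalClosure hx
  have r1 : ∀ q i, π (τ q) * π (e (FreeGroup.of i)) = π (e (u1 q i)) * π (τ q) := by
    intro q i
    have := hR _ (Or.inl (Or.inl (Or.inr ⟨(q, i), rfl⟩)))
    simp only [map_mul, map_inv, mul_inv_eq_one] at this
    exact mul_inv_eq_iff_eq_mul.mp this
  have r2 : ∀ q r, π (τ q) * π (τ r) = π (e (u2 q r)) * π (τ (q * r)) := by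
    intro q r
    have := hR _ (Or.inl (Or.inr ⟨(q, r), rfl⟩))
    simp only [map_mul, map_inv, mul_inv_eq_one] at this
    exact mul_inv_eq_iff_eq_mul.mp this
  have r0 : π (τ 1) = π (e u0) := by
    have := hR _ (Or.inr rfl)
    simpa [map_mul, map_inv, mul_inv_eq_one] using this
  have form : ∀ w, ∃ u q, π w = π (e u) * π (τ q) := by
    intro w
    have hmem : w ∈ Subgroup.closure (Set.range (FreeGroup.of : Fin n ⊕ Q → _)) := by
      rw [FreeGroup.closure_range_of]; trivial
    induction hmem using Subgroup.closure_induction_right with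
    | one => exact ⟨u0⁻¹, 1, by simp [r0]⟩
    | mul_right x hx y hy ih =>
      obtain ⟨u, q, hu⟩ := ih
      obtain ⟨z, rfl⟩ := hy
      cases z with
      | inl i =>
        refine ⟨u * u1 q i, q, ?_⟩
        have : FreeGroup.of (Sum.inl i) = e (FreeGroup.of i) := by simp [e]
        rw [map_mul, hu, this, mul_assoc, r1, map_mul, map_mul, mul_assoc]
      | inr r =>
        refine ⟨u * u2 q r, q * r, ?_⟩
        rw [map_mul, hu, map_mul, map_mul, mul_assoc, r2 q r, mul_assoc]
    | mul_inv_cancel x hx y hy ih =>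
      obtain ⟨u, q, hu⟩ := ih
      obtain ⟨z, rfl⟩ := hy
      cases z with
      | inl i =>
        refine ⟨u * (u1 q i)⁻¹, q, ?_⟩
        have : FreeGroup.of (Sum.inl i) = e (FreeGroup.of i) := by simp [e]
        have h := r1 q i
        rw [map_mul, hu, map_inv, this, map_mul, map_inv, map_mul, map_inv, mul_assoc, mul_assoc]
        congr 1
        rw [eq_inv_mul_iff_mul_eq, ← mul_assoc, ← h, mul_inv_cancel_right]
      | inr r =>
        refine ⟨u * (u2 (q * r⁻¹) r)⁻¹, q * r⁻¹, ?_⟩
        have h := r2 (q * r⁻¹) r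
        rw [inv_mul_cancel_right] at h
        have h' : π (τ q) = (π (e (u2 (q * r⁻¹) r)))⁻¹ * (π (τ (q * r⁻¹)) * π (τ r)) := by
          rw [h, inv_mul_cancel_left]
        rw [map_mul, hu, map_inv, h', map_mul, map_inv, map_mul, map_inv]
        simp only [τ]; group
  have hsurj : Function.Surjective ψ := by
    intro w
    obtain ⟨u, hu⟩ := hker (w * (t (f w))⁻¹) (by simp [ht])
    exact ⟨e u * τ (f w), by rw [map_mul, hψe', hψτ, hu, inv_mul_cancel_right]⟩
  have : Finite (Fin n ⊕ Q) := inferInstance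
  refine Group.IsFinitelyPresented.of_surjective ψ hsurj ⟨R, ?_, ?_⟩
  · exact (((hS.image _).union (Set.finite_range _)).union (Set.finite_range _)).union
      (Set.finite_singleton _)
  · have hle : normalClosure R ≤ ψ.ker := by
      refine normalClosure_le_normal ?_
      rintro x (((⟨s, hs, rfl⟩ | ⟨p, rfl⟩) | ⟨p, rfl⟩) | rfl)
      · have : s ∈ φ.ker := hSφ ▸ subset_normalClosure hs
        rw [SetLike.mem_coe, MonoidHom.mem_ker, hψe', MonoidHom.mem_ker.mp this, map_one]
      · simp only [SetLike.mem_coe, MonoidHom.mem_ker, map_mul, map_inv, hψe', hψτ, hu1]; group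
      · simp only [SetLike.mem_coe, MonoidHom.mem_ker, map_mul, map_inv, hψe', hψτ, hu2]; group
      · simp only [SetLike.mem_coe, MonoidHom.mem_ker, map_mul, map_inv, hψe', hψτ, hu0]; group
    refine le_antisymm hle fun w hw => ?_
    obtain ⟨u, q, hu⟩ := form w
    have hdiff : (e u * τ q)⁻¹ * w ∈ ψ.ker := hle (by
      rw [← QuotientGroup.eq]
      simpa [π] using hu.symm)
    have h2 : ψ (e u * τ q) = 1 := by
      have h3 : ψ ((e u * τ q)⁻¹ * w) = 1 := hdiff
      rw [map_mul, map_inv, MonoidHom.mem_ker.mp hw, mul_one, inv_eq_one] at h3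
      exact h3
    have hq : q = 1 := by simpa [hψe', hψτ, hfj, ht] using congrArg f h2
    subst hq
    rw [map_mul, hψe', hψτ, ← hu0, ← map_mul, ← map_mul] at h2
    have h3 : φ (u * u0) = 1 := hj (h2.trans (map_one j).symm)
    have h4 : u * u0 ∈ normalClosure S := hSφ ▸ h3
    have hl : normalClosure S ≤ (normalClosure R).comap e :=
      normalClosure_le_normal fun s hs => subset_normalClosure (Or.inl (Or.inl (Or.inl ⟨s, hs, rfl⟩)))
    have h5 : π (e (u * u0)) = 1 := (QuotientGroup.eq_one_iff _).mpr (hl h4)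
    have : π w = 1 := by rw [hu, r0, ← map_mul, ← map_mul, h5]
    exact (QuotientGroup.eq_one_iff w).mp this

instance prodFP {G H : Type*} [Group G] [Group H] [hG : Group.IsFinitelyPresented G]
    [hH : Group.IsFinitelyPresented H] : Group.IsFinitelyPresented (G × H) := by
  obtain ⟨n, φ, hφ, -⟩ := hG.out
  obtain ⟨m, θ, hθ, -⟩ := hH.out
  refine Group.IsFinitelyPresented.of_surjective
    (Monoid.Coprod.lift (MonoidHom.inl G H) (MonoidHom.inr G H)) ?_ ?_
  · intro p
    exact ⟨Monoid.Coprod.inl p.1 * Monoid.Coprod.inr p.2, by ext <;> simp⟩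
  let gi : Fin n → Monoid.Coprod G H := fun i => Monoid.Coprod.inl (φ (FreeGroup.of i))
  let hk : Fin m → Monoid.Coprod G H := fun k => Monoid.Coprod.inr (θ (FreeGroup.of k))
  let R : Set (Monoid.Coprod G H) :=
    Set.range fun p : Fin n × Fin m => gi p.1 * hk p.2 * (gi p.1)⁻¹ * (hk p.2)⁻¹
  refine ⟨R, Set.finite_range _, le_antisymm ?_ ?_⟩
  · refine normalClosure_le_normal ?_
    rintro x ⟨p, rfl⟩
    rw [SetLike.mem_coe, MonoidHom.mem_ker]
    ext <;> simp [gi, hk]
  · let P := Monoid.Coprod G H ⧸ normalClosure R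
    let π : Monoid.Coprod G H →* P := QuotientGroup.mk' _
    let a : G →* P := π.comp Monoid.Coprod.inl
    let b : H →* P := π.comp Monoid.Coprod.inr
    have hc : ∀ i k, Commute (a (φ (FreeGroup.of i))) (b (θ (FreeGroup.of k))) := by
      intro i k
      have : π (gi i * hk k * (gi i)⁻¹ * (hk k)⁻¹) = 1 := by
        exact (QuotientGroup.eq_one_iff _).mpr
          (subset_normalClosure (show _ ∈ R from ⟨(i, k), rfl⟩))
      simp only [map_mul, map_inv, mul_inv_eq_one] at this
      exact mul_inv_eq_iff_eq_mul.mp this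
    have hc' : ∀ u v, Commute (a (φ u)) (b (θ v)) := by
      intro u v
      induction u using FreeGroup.induction_on with
      | C1 => simp
      | of i =>
        induction v using FreeGroup.induction_on with
        | C1 => simp
        | of k => exact hc i k
        | inv_of k h => simpa using h.inv_right
        | mul x y hx hy => simpa using hx.mul_right hy
      | inv_of i h => simpa using h.inv_left
      | mul x y hx hy => simpa using hx.mul_left hy
    have hcomm : ∀ g h, Commute (a g) (b h) := fun g h => by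
      obtain ⟨u, rfl⟩ := hφ g
      obtain ⟨v, rfl⟩ := hθ h
      exact hc' u v
    have hπ : (a.noncommCoprod b hcomm).comp
        (Monoid.Coprod.lift (MonoidHom.inl G H) (MonoidHom.inr G H)) = π := by
      ext x <;> simp [a, b]
    intro x hx
    have : π x = 1 := by
      rw [← hπ, MonoidHom.comp_apply, MonoidHom.mem_ker.mp hx, map_one]
    exact (QuotientGroup.eq_one_iff x).mp this

lemma piFP (G : Type*) [Group G] [Group.IsFinitelyPresented G] (n : ℕ) :
    Group.IsFinitelyPresented (Fin n → G) := by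
  induction n with
  | zero => infer_instance
  | succ n ih =>
    exact Group.IsFinitelyPresented.equiv (H := Fin (n + 1) → G)
      { toEquiv := Fin.consEquiv (fun _ => G)
        map_mul' := fun p q => by ext i; refine Fin.cases ?_ ?_ i <;> simp }

lemma piFP' (G : Type*) [Group G] [Group.IsFinitelyPresented G] (X : Type*) [Finite X] :
    Group.IsFinitelyPresented (X → G) := by
  obtain ⟨n, ⟨σ⟩⟩ := Finite.exists_equiv_fin X
  have := piFP G n
  exact Group.IsFinitelyPresented.equiv (H := X → G)
    { toFun := fun u x => u (σ x)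
      invFun := fun u i => u (σ.symm i)
      left_inv := fun u => by simp
      right_inv := fun u => by simp
      map_mul' := fun _ _ => rfl }

lemma finite_of_fg_free (α : Type*) [h : Group.FG (FreeGroup α)] : Finite α := by
  classical
  obtain ⟨S, hS⟩ := Group.fg_iff.mp h
  have supp : ∀ w : FreeGroup α, ∃ s : Finset α, w ∈ closure (FreeGroup.of '' (s : Set α)) := by
    intro w
    induction w using FreeGroup.induction_on with
    | C1 => exact ⟨∅, one_mem _⟩
    | of a => exact ⟨{a}, subset_closure ⟨a, by simp⟩⟩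
    | inv_of a h => obtain ⟨s, hs⟩ := h; exact ⟨s, inv_mem hs⟩
    | mul x y hx hy =>
      obtain ⟨s, hs⟩ := hx
      obtain ⟨s', hs'⟩ := hy
      exact ⟨s ∪ s', mul_mem (closure_mono (Set.image_mono (by simp)) hs)
        (closure_mono (Set.image_mono (by simp)) hs')⟩
  choose s hs using supp
  let T : Finset α := hS.2.toFinset.biUnion s
  refine Finite.of_injective (β := {a // a ∈ T}) (fun a => ⟨a, ?_⟩) ?_
  · by_contra ha
    let χ : FreeGroup α →* Multiplicative ℤ :=
      FreeGroup.lift fun b => if b = a then Multiplicative.ofAdd 1 else 1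
    have hle : closure S ≤ χ.ker := by
      rw [closure_le]
      intro w hw
      have h1 : w ∈ closure (FreeGroup.of '' (T : Set α)) := by
        refine closure_mono (Set.image_mono ?_) (hs w)
        intro b hb
        exact Finset.mem_biUnion.mpr ⟨w, hS.2.mem_toFinset.mpr hw, hb⟩
      refine (closure_le _).mpr ?_ h1
      rintro x ⟨b, hb, rfl⟩
      have : b ≠ a := fun e => ha (e ▸ hb)
      simp [χ, this]
    have : χ (FreeGroup.of a) = 1 := hle (hS.1 ▸ mem_top _)
    simp [χ] at this
  · intro a b hab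
    simpa using hab

lemma finiteIndexFP {W : Type*} [Group W] [hW : Group.IsFinitelyPresented W] (H : Subgroup W)
    [H.FiniteIndex] : Group.IsFinitelyPresented H := by
  classical
  obtain ⟨n, φ, hφ, S, hS, hSφ⟩ := hW.out
  let K : Subgroup (FreeGroup (Fin n)) := H.comap φ
  have : K.FiniteIndex := ⟨by
    rw [index_comap_of_surjective H hφ]; exact FiniteIndex.index_ne_zero⟩
  have : IsFreeGroup K := inferInstance
  let e := IsFreeGroup.toFreeGroup K
  have : Group.FG (FreeGroup (IsFreeGroup.Generators K)) :=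
    Group.fg_of_surjective (f := e.toMonoidHom) e.surjective
  have : Finite (IsFreeGroup.Generators K) := finite_of_fg_free _
  have : Group.IsFinitelyPresented K := Group.IsFinitelyPresented.equiv e.symm
  refine Group.IsFinitelyPresented.of_surjective (φ.subgroupComap H) ?_ ?_
  · intro x
    obtain ⟨u, hu⟩ := hφ x
    exact ⟨⟨u, by simp [K, hu]⟩, Subtype.ext hu⟩
  have hker : φ.ker ≤ K := fun x hx => by simp [K, MonoidHom.mem_ker.mp hx]
  have : Finite (FreeGroup (Fin n) ⧸ K) := K.finite_quotient_of_finiteIndex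
  let rep : FreeGroup (Fin n) ⧸ K → FreeGroup (Fin n) := fun c => c.out
  have hsker : ∀ s ∈ S, s ∈ φ.ker := fun s hs => hSφ ▸ subset_normalClosure hs
  have hmem : ∀ c, ∀ s ∈ S, (rep c)⁻¹ * s * rep c ∈ K := fun c s hs =>
    hker (by simpa using (MonoidHom.normal_ker φ).conj_mem s (hsker s hs) (rep c)⁻¹)
  have : Finite S := hS
  let T : Set K := Set.range fun p : (FreeGroup (Fin n) ⧸ K) × S =>
    ⟨(rep p.1)⁻¹ * p.2 * rep p.1, hmem p.1 p.2 p.2.2⟩
  refine ⟨T, Set.finite_range _, le_antisymm ?_ ?_⟩
  · refine normalClosure_le_normal ?_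
    rintro x ⟨⟨c, s⟩, rfl⟩
    rw [SetLike.mem_coe, MonoidHom.mem_ker]
    apply Subtype.ext
    change φ ((rep c)⁻¹ * s * rep c) = 1
    simp [MonoidHom.mem_ker.mp (hsker s s.2)]
  · let M : Subgroup (FreeGroup (Fin n)) := (normalClosure T).map K.subtype
    have conj : ∀ (f : FreeGroup (Fin n)), ∀ s ∈ S, f * s * f⁻¹ ∈ M := by
      intro f s hs
      let c : FreeGroup (Fin n) ⧸ K := QuotientGroup.mk f⁻¹
      have hk : (rep c)⁻¹ * f⁻¹ ∈ K := by
        have : (QuotientGroup.mk (rep c) : FreeGroup (Fin n) ⧸ K) = QuotientGroup.mk f⁻¹ :=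
          Quotient.out_eq' c
        exact QuotientGroup.eq.mp this
      let k : K := ⟨(rep c)⁻¹ * f⁻¹, hk⟩
      let x : K := ⟨(rep c)⁻¹ * s * rep c, hmem c s hs⟩
      have hx : x ∈ normalClosure T := subset_normalClosure ⟨(c, ⟨s, hs⟩), rfl⟩
      refine ⟨k⁻¹ * x * k, normalClosure_normal.conj_mem' x hx k, ?_⟩
      simp [k, x, mul_assoc]
    have hle : normalClosure S ≤ M := by
      rw [normalClosure, closure_le]
      intro y hy
      obtain ⟨s, hs, hconj⟩ := Group.mem_conjugatesOfSet_iff.mp hy
      obtain ⟨f, rfl⟩ := isConj_iff.mp hconj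
      exact conj f s hs
    intro x hx
    have hx' : (x : FreeGroup (Fin n)) ∈ normalClosure S := by
      rw [hSφ, MonoidHom.mem_ker]
      exact congrArg Subtype.val (MonoidHom.mem_ker.mp hx)
    obtain ⟨y, hy, hyx⟩ := hle hx'
    exact Subtype.ext hyx ▸ hy

end Vale.Agent.P192
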