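import Vale.Agent.P192.Reduction

/-! The Burnside question for finitely presented groups reduces to quotients of the modular group. -/

namespace Vale.Agent.P192

lemma to_presented {G : Type} [Group G] [Group.IsFinitelyPresented G]
    (htor : ∀ g : G, IsOfFinOrder g) :
    ∃ s : Set (FreeGroup (Fin 2)), s.Finite ∧ ∀ P : Set (FreeGroup (Fin 2)),
      P = {FreeGroup.of 0 ^ 2, FreeGroup.of 1 ^ 3} ∪ s →
      (∀ x : PresentedGroup P, IsOfFinOrder x) ∧
      (∀ e : ℕ, 0 < e → (∀ g : G, g ^ e = 1) →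
        ∃ e', 0 < e' ∧ ∀ x : PresentedGroup P, x ^ e' = 1) ∧
      (Finite (PresentedGroup P) → Finite G) := by
  obtain ⟨H, _, _, A, B, hA, hB, hgen, hH, hexp, hfin⟩ := exists_two_three htor
  let ψ : FreeGroup (Fin 2) →* H := FreeGroup.lift ![A, B]
  have hψ : Function.Surjective ψ := by
    rw [← MonoidHom.range_eq_top, eq_top_iff, ← hgen, Subgroup.closure_le]
    rintro x (rfl | rfl)
    · exact ⟨FreeGroup.of 0, by simp [ψ]⟩
    · exact ⟨FreeGroup.of 1, by simp [ψ]⟩
  obtain ⟨s, hs, hker⟩ := ker_fng ψ hψ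
  refine ⟨s, hs, fun P hP => ?_⟩
  have hPker : Subgroup.normalClosure P = ψ.ker := by
    refine le_antisymm (Subgroup.normalClosure_le_normal ?_) (hker ▸ Subgroup.normalClosure_mono
      (hP ▸ Set.subset_union_right))
    subst hP
    rintro x ((rfl | rfl) | hx)
    · simp [MonoidHom.mem_ker, ψ, hA]
    · simp [MonoidHom.mem_ker, ψ, hB]
    · exact hker ▸ Subgroup.subset_normalClosure hx
  let E : PresentedGroup P ≃* H :=
    (QuotientGroup.quotientMulEquivOfEq hPker).trans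
      (QuotientGroup.quotientKerEquivOfSurjective ψ hψ)
  refine ⟨fun x => ?_, fun e he h => ?_, fun h => hfin (Finite.of_equiv _ E.toEquiv)⟩
  · have := MonoidHom.isOfFinOrder E.symm.toMonoidHom (hH (E x))
    simpa using this
  · obtain ⟨e', he', h'⟩ := hexp e he h
    exact ⟨e', he', fun x => E.injective (by rw [map_pow, h', map_one])⟩

lemma presented_fp (s : Set (FreeGroup (Fin 2))) (hs : s.Finite) :
    Group.IsFinitelyPresented
      (PresentedGroup ({FreeGroup.of 0 ^ 2, FreeGroup.of 1 ^ 3} ∪ s)) := by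
  have : Finite ({FreeGroup.of 0 ^ 2, FreeGroup.of 1 ^ 3} ∪ s : Set (FreeGroup (Fin 2))) :=
    ((Set.toFinite _).union hs).to_subtype
  infer_instance

theorem burnside_modular :
    ((∀ (G : Type) [Group G], Group.IsFinitelyPresented G → (∀ g : G, IsOfFinOrder g) →
        Finite G) ↔
      ∀ s : Set (FreeGroup (Fin 2)), s.Finite →
        (∀ g : PresentedGroup ({FreeGroup.of 0 ^ 2, FreeGroup.of 1 ^ 3} ∪ s), IsOfFinOrder g) →
        Finite (PresentedGroup ({FreeGroup.of 0 ^ 2, FreeGroup.of 1 ^ 3} ∪ s))) ∧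
    ((∀ (G : Type) [Group G], Group.IsFinitelyPresented G →
        (∃ e : ℕ, 0 < e ∧ ∀ g : G, g ^ e = 1) → Finite G) ↔
      ∀ s : Set (FreeGroup (Fin 2)), s.Finite →
        (∃ e : ℕ, 0 < e ∧
          ∀ g : PresentedGroup ({FreeGroup.of 0 ^ 2, FreeGroup.of 1 ^ 3} ∪ s), g ^ e = 1) →
        Finite (PresentedGroup ({FreeGroup.of 0 ^ 2, FreeGroup.of 1 ^ 3} ∪ s))) := by
  refine ⟨⟨fun h s hs => h _ (presented_fp s hs), fun h G _ hG htor => ?_⟩,
    ⟨fun h s hs => h _ (presented_fp s hs), fun h G _ hG hexp => ?_⟩⟩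
  · obtain ⟨s, hs, hP⟩ := to_presented htor
    obtain ⟨h1, -, h3⟩ := hP _ rfl
    exact h3 (h s hs h1)
  · obtain ⟨e, he, hge⟩ := hexp
    have htor : ∀ g : G, IsOfFinOrder g := fun g =>
      isOfFinOrder_iff_pow_eq_one.mpr ⟨e, he, hge g⟩
    obtain ⟨s, hs, hP⟩ := to_presented htor
    obtain ⟨-, h2, h3⟩ := hP _ rfl
    exact h3 (h s hs (h2 e he hge))

end Vale.Agent.P192
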