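import Mathlib

/-! Subgroups of finite index in finite powers, from pairwise information. -/

namespace Vale.Agent.P192

open Subgroup
open scoped commutatorElement

variable {G : Type*} [Group G]

lemma commutator_index_ne_zero [Group.FG G] (htor : ∀ g : G, IsOfFinOrder g) (A B : Subgroup G)
    [A.FiniteIndex] [B.FiniteIndex] : ⁅A, B⁆.FiniteIndex := by
  let U := A ⊓ B
  have : U.FiniteIndex := inferInstance
  have : Group.FG U := Subgroup.fg_of_index_ne_zero U
  have : Group.FG (Abelianization U) :=
    Group.fg_of_surjective (f := Abelianization.of) (QuotientGroup.mk'_surjective _)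
  have hab : ∀ x : Abelianization U, IsOfFinOrder x := by
    intro x
    obtain ⟨u, rfl⟩ := QuotientGroup.mk'_surjective _ x
    have hu : IsOfFinOrder u := by
      rw [← Submonoid.isOfFinOrder_coe]; exact htor u
    exact MonoidHom.isOfFinOrder (QuotientGroup.mk' (commutator U)) hu
  have : Finite (Abelianization U) := CommGroup.finite_of_fg_isMulTorsion _ hab
  have h1 : (commutator U).FiniteIndex := ⟨by
    rw [Subgroup.index]
    exact (Nat.card_pos (α := Abelianization U)).ne'⟩
  have h2 : ((commutator U).map U.subtype).FiniteIndex := ⟨by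
    rw [index_map_subtype]
    exact mul_ne_zero h1.index_ne_zero FiniteIndex.index_ne_zero⟩
  refine Subgroup.finiteIndex_of_le (H := (commutator U).map U.subtype) ?_
  rw [Subgroup.map_subtype_commutator]
  exact commutator_mono inf_le_left inf_le_right

variable {X : Type*} [DecidableEq X] [Finite X]

/-- Values at `y` of the elements of `K` that are trivial on `S`. -/
def proj (K : Subgroup (X → G)) (y : X) (S : Finset X) : Subgroup G :=
  (K ⊓ ⨅ z ∈ S, (Pi.evalMonoidHom (fun _ : X => G) z).ker).map (Pi.evalMonoidHom (fun _ => G) y)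

omit [DecidableEq X] [Finite X] in
lemma mem_proj {K : Subgroup (X → G)} {y : X} {S : Finset X} {g : G} :
    g ∈ proj K y S ↔ ∃ k ∈ K, (∀ z ∈ S, k z = 1) ∧ k y = g := by
  simp [proj, mem_map, mem_iInf, and_assoc]

omit [Finite X] in
lemma proj_commutator (K : Subgroup (X → G)) (y : X) (S T : Finset X) :
    ⁅proj K y S, proj K y T⁆ ≤ proj K y (S ∪ T) := by
  rw [commutator_le]
  intro a ha b hb
  obtain ⟨k, hk, hkS, rfl⟩ := mem_proj.mp ha
  obtain ⟨l, hl, hlT, rfl⟩ := mem_proj.mp hb
  refine mem_proj.mpr ⟨⁅k, l⁆, ?_, ?_, ?_⟩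
  · exact K.mul_mem (K.mul_mem (K.mul_mem hk hl) (K.inv_mem hk)) (K.inv_mem hl)
  · intro z hz
    rcases Finset.mem_union.mp hz with h | h
    · simp [commutatorElement_def, hkS z h]
    · simp [commutatorElement_def, hlT z h]
  · simp [commutatorElement_def]

lemma finiteIndex_of_pairs [Group.FG G] (htor : ∀ g : G, IsOfFinOrder g) (K : Subgroup (X → G))
    [Nontrivial X] (hK : ∀ y z : X, y ≠ z → proj K y {z} = ⊤) : K.FiniteIndex := by
  classical
  have hfi : ∀ (y : X) (S : Finset X), y ∉ S → (proj K y S).FiniteIndex := by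
    intro y S
    induction S using Finset.induction_on with
    | empty =>
      intro _
      obtain ⟨z, hz⟩ := exists_ne y
      have : proj K y {z} ≤ proj K y ∅ := fun g hg => by
        obtain ⟨k, hk, -, he⟩ := mem_proj.mp hg
        exact mem_proj.mpr ⟨k, hk, by simp, he⟩
      rw [hK y z hz.symm] at this
      exact ⟨by rw [top_le_iff.mp this]; simp⟩
    | insert z S _ ih =>
      intro hy
      rw [Finset.mem_insert, not_or] at hy
      have := ih hy.2
      have : (proj K y {z}).FiniteIndex := ⟨by rw [hK y z hy.1]; simp⟩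
      have := commutator_index_ne_zero htor (proj K y {z}) (proj K y S)
      refine Subgroup.finiteIndex_of_le (H := ⁅proj K y {z}, proj K y S⁆) ?_
      rw [Finset.insert_eq]
      exact proj_commutator K y {z} S
  have : Fintype X := Fintype.ofFinite X
  let L : X → Subgroup G := fun y => proj K y (Finset.univ.erase y)
  have hL : ∀ y, (L y).FiniteIndex := fun y => hfi y _ (by simp)
  have hle : Subgroup.pi Set.univ L ≤ K := by
    rw [pi_le_iff]
    intro y
    rw [map_le_iff_le_comap]
    intro g hg
    obtain ⟨k, hk, hkz, rfl⟩ := mem_proj.mp hg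
    have : (MonoidHom.mulSingle (fun _ : X => G) y) (k y) = k := by
      ext z
      rcases eq_or_ne z y with rfl | hz
      · simp
      · simp [Pi.mulSingle_eq_of_ne hz, hkz z (by simp [hz])]
    rw [mem_comap, this]; exact hk
  have hpi : (Subgroup.pi Set.univ L).FiniteIndex := by
    have h : ∀ y, ((L y).comap (Pi.evalMonoidHom (fun _ : X => G) y)).FiniteIndex := fun y => ⟨by
      rw [index_comap_of_surjective _ (fun g => ⟨fun _ => g, rfl⟩)]
      exact (hL y).index_ne_zero⟩
    have : (⨅ y, (L y).comap (Pi.evalMonoidHom (fun _ : X => G) y)).FiniteIndex :=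
      Subgroup.finiteIndex_iInf h
    refine Subgroup.finiteIndex_of_le
      (H := ⨅ y, (L y).comap (Pi.evalMonoidHom (fun _ : X => G) y)) ?_
    intro k hk y _
    exact (mem_iInf.mp hk y)
  exact Subgroup.finiteIndex_of_le hle

end Vale.Agent.P192
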