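import Mathlib

/-! A finite `(2,3,6)` group acting on the triangular lattice modulo `m`, with sparse marks. -/

namespace Vale.Agent.P192

variable (m : ℕ)

abbrev V := ZMod m × ZMod m

/-- Rotation by a sixth of a turn in the basis `1, ζ`. -/
def rot : V m ≃+ V m where
  toFun v := (-v.2, v.1 + v.2)
  invFun v := (v.1 + v.2, -v.1)
  left_inv v := by ext <;> simp
  right_inv v := by ext <;> simp
  map_add' v w := by ext <;> simp <;> abel

def e1 : V m := (1, 0)

/-- The involution `v ↦ e1 - v`. -/
def flipA : Equiv.Perm (V m) := (Equiv.neg _).trans (Equiv.addLeft (e1 m))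

/-- The rotation `v ↦ e1 - rot v` of order three. -/
def turnB : Equiv.Perm (V m) := (rot m).toEquiv.trans (flipA m)

def Tri : Subgroup (Equiv.Perm (V m)) := Subgroup.closure {flipA m, turnB m}

def gA : Tri m := ⟨flipA m, Subgroup.subset_closure (by simp)⟩
def gB : Tri m := ⟨turnB m, Subgroup.subset_closure (by simp)⟩
def gC : Tri m := gA m * gB m

variable {m}

lemma flipA_apply (v : V m) : flipA m v = e1 m - v := by
  simp [flipA, sub_eq_add_neg]

lemma rot_apply (v : V m) : rot m v = (-v.2, v.1 + v.2) := rfl

lemma turnB_apply (v : V m) : turnB m v = e1 m - rot m v := by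
  simp [turnB, flipA_apply]

lemma gC_apply (v : V m) : (gC m).1 v = rot m v := by
  simp [gC, gA, gB, Equiv.Perm.mul_apply, flipA_apply, turnB_apply]

lemma gA_apply (v : V m) : (gA m).1 v = e1 m - v := flipA_apply v

lemma gA_sq : gA m * gA m = 1 := by
  apply Subtype.ext; ext v <;> simp [gA, flipA_apply, Equiv.Perm.mul_apply]

lemma gB_cube : gB m * gB m * gB m = 1 := by
  apply Subtype.ext; ext v <;> simp [gB, turnB_apply, Equiv.Perm.mul_apply, rot_apply, e1] <;> ring

lemma gC_pow_apply (i : ℕ) (v : V m) : ((gC m) ^ i).1 v = (rot m)^[i] v := by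
  induction i generalizing v with
  | zero => simp
  | succ i ih =>
    rw [pow_succ, Subgroup.coe_mul, Equiv.Perm.mul_apply, ih, gC_apply, Function.iterate_succ_apply]

lemma rot_iter_zero (i : ℕ) : (rot m)^[i] (0 : V m) = 0 := by
  induction i with
  | zero => rfl
  | succ i ih => rw [Function.iterate_succ_apply', ih, map_zero]

lemma rot_three (v : V m) : (rot m)^[3] v = -v := by
  ext <;> simp [Function.iterate_succ_apply', rot_apply]

lemma rot_six (v : V m) : (rot m)^[6] v = v := by
  rw [show (6 : ℕ) = 3 + 3 from rfl, Function.iterate_add_apply, rot_three, rot_three, neg_neg]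

lemma gC_six : gC m ^ 6 = 1 := by
  apply Subtype.ext; ext v : 1
  rw [gC_pow_apply, rot_six]; rfl

lemma tri_affine {q : Equiv.Perm (V m)} (hq : q ∈ Tri m) :
    ∃ j, j < 6 ∧ ∀ v, q v = q 0 + (rot m)^[j] v := by
  suffices h : ∃ j, ∀ v, q v = q 0 + (rot m)^[j] v by
    obtain ⟨j, hj⟩ := h
    refine ⟨j % 6, Nat.mod_lt _ (by norm_num), fun v => ?_⟩
    have hper : ∀ (k : ℕ) (w : V m), (rot m)^[6 * k] w = w := by
      intro k w; induction k with
      | zero => rfl
      | succ k ih => rw [Nat.mul_succ, Function.iterate_add_apply, rot_six, ih]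
    rw [hj v]; congr 1
    conv_lhs => rw [← Nat.div_add_mod j 6, Function.iterate_add_apply, hper]
  have hadd : ∀ (j : ℕ) (x y : V m), (rot m)^[j] (x + y) = (rot m)^[j] x + (rot m)^[j] y := by
    intro j x y; induction j with
    | zero => rfl
    | succ j ih => simp only [Function.iterate_succ_apply', ih, map_add]
  have hneg : ∀ x : V m, -x = (rot m)^[3] x := fun x => (rot_three x).symm
  have step : ∀ (p : Equiv.Perm (V m)), (∃ j, ∀ v, p v = p 0 + (rot m)^[j] v) →
      ∀ (r : Equiv.Perm (V m)), (∃ i, ∀ v, r v = r 0 + (rot m)^[i] v) →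
      ∃ j, ∀ v, (p * r) v = (p * r) 0 + (rot m)^[j] v := by
    rintro p ⟨j, hj⟩ r ⟨i, hi⟩
    refine ⟨j + i, fun v => ?_⟩
    simp only [Equiv.Perm.mul_apply]
    rw [hi v, hj (r 0 + _), hj (r 0), hadd, Function.iterate_add_apply, add_assoc]
  have hA : ∃ i, ∀ v, flipA m v = flipA m 0 + (rot m)^[i] v :=
    ⟨3, fun v => by rw [flipA_apply, flipA_apply, sub_zero, ← hneg, sub_eq_add_neg]⟩
  have hB : ∃ i, ∀ v, turnB m v = turnB m 0 + (rot m)^[i] v := by
    refine ⟨4, fun v => ?_⟩
    rw [turnB_apply, turnB_apply, map_zero, sub_zero, sub_eq_add_neg,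
      show (4 : ℕ) = 3 + 1 from rfl, Function.iterate_add_apply, ← hneg]
    rfl
  induction hq using Subgroup.closure_induction_right with
  | one => exact ⟨0, fun v => by simp⟩
  | mul_right x hx y hy ih =>
    rcases hy with rfl | rfl
    · exact step _ ih _ hA
    · exact step _ ih _ hB
  | mul_inv_cancel x hx y hy ih =>
    rcases hy with rfl | rfl
    · have : (flipA m)⁻¹ = flipA m := by
        rw [inv_eq_iff_mul_eq_one]; exact congrArg Subtype.val (gA_sq (m := m))
      rw [this]; exact step _ ih _ hA
    · have : (turnB m)⁻¹ = turnB m * turnB m := by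
        rw [inv_eq_iff_mul_eq_one, ← mul_assoc]; exact congrArg Subtype.val (gB_cube (m := m))
      rw [this]; exact step _ ih _ (step _ hB _ hB)

lemma transitive [NeZero m] (v : V m) : ∃ q : Tri m, q.1 0 = v := by
  let T : Tri m := gA m * gC m ^ 3
  let T' : Tri m := gC m * T * gC m ^ 5
  have hT : ∀ w : V m, T.1 w = e1 m + w := fun w => by
    simp only [T, Subgroup.coe_mul, Equiv.Perm.mul_apply, gC_pow_apply, gA_apply, rot_three,
      sub_neg_eq_add]
  have hT' : ∀ w : V m, T'.1 w = (0, 1) + w := fun w => by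
    simp only [T', Subgroup.coe_mul, Equiv.Perm.mul_apply, gC_apply, hT, gC_pow_apply, map_add,
      ← Function.iterate_succ_apply' (rot m) 5 w, rot_six]
    simp [e1, rot_apply]
  have hpow : ∀ (n : ℕ) (w : V m), (T ^ n).1 w = (n • e1 m) + w := by
    intro n w; induction n generalizing w with
    | zero => simp
    | succ n ih => rw [pow_succ, Subgroup.coe_mul, Equiv.Perm.mul_apply, ih, hT, succ_nsmul]; abel
  have hpow' : ∀ (n : ℕ) (w : V m), (T' ^ n).1 w = (n • ((0, 1) : V m)) + w := by
    intro n w; induction n generalizing w with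
    | zero => simp
    | succ n ih => rw [pow_succ, Subgroup.coe_mul, Equiv.Perm.mul_apply, ih, hT', succ_nsmul]; abel
  refine ⟨T ^ v.1.val * T' ^ v.2.val, ?_⟩
  rw [Subgroup.coe_mul, Equiv.Perm.mul_apply, hpow', hpow]
  ext <;> simp [e1]

lemma four_pow_pair {a b c d : ℕ} (h : 4 ^ a + 4 ^ b = 4 ^ c + 4 ^ d) :
    (a = c ∧ b = d) ∨ (a = d ∧ b = c) := by
  have key : ∀ {a b c d : ℕ}, 4 ^ a + 4 ^ b = 4 ^ c + 4 ^ d → b ≤ a → d ≤ c → a = c ∧ b = d := by
    intro a b c d h hba hdc
    have hb : 4 ^ b ≤ 4 ^ a := Nat.pow_le_pow_right (by norm_num) hba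
    have hd : 4 ^ d ≤ 4 ^ c := Nat.pow_le_pow_right (by norm_num) hdc
    have pa : 0 < 4 ^ a := by positivity
    have pc : 0 < 4 ^ c := by positivity
    have pb : 0 < 4 ^ b := by positivity
    have pd : 0 < 4 ^ d := by positivity
    have hac : a = c := by
      rcases lt_trichotomy a c with hlt | heq | hgt
      · have := Nat.pow_le_pow_right (show 1 ≤ 4 by norm_num) (show a + 1 ≤ c by omega)
        rw [pow_succ] at this; omega
      · exact heq
      · have := Nat.pow_le_pow_right (show 1 ≤ 4 by norm_num) (show c + 1 ≤ a by omega)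
        rw [pow_succ] at this; omega
    subst hac
    exact ⟨rfl, Nat.pow_right_injective (by norm_num) (show 4 ^ b = 4 ^ d by omega)⟩
  rcases le_total b a with h1 | h1 <;> rcases le_total d c with h2 | h2
  · exact Or.inl (key h h1 h2)
  · exact Or.inr (key (by omega) h1 h2)
  · obtain ⟨x, y⟩ := key (show 4 ^ b + 4 ^ a = 4 ^ c + 4 ^ d by omega) h1 h2
    exact Or.inr ⟨y, x⟩
  · obtain ⟨x, y⟩ := key (show 4 ^ b + 4 ^ a = 4 ^ d + 4 ^ c by omega) h1 h2
    exact Or.inl ⟨y, x⟩

/-- The modulus used for `N` marked pairs. -/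
def modulus (N : ℕ) : ℕ := 4 ^ (N + 3)

/-- The position of the marked pair `i`. -/
def pos {N : ℕ} (i : Fin N) : ℕ := 4 ^ (i.val + 1)

variable {N : ℕ}

lemma pos_le (i : Fin N) : 4 ≤ pos i ∧ 16 * pos i ≤ modulus N := by
  have h1 : 4 ^ 1 ≤ 4 ^ (i.val + 1) := Nat.pow_le_pow_right (by norm_num) (by omega)
  have h2 : 4 ^ (i.val + 3) ≤ 4 ^ (N + 3) := Nat.pow_le_pow_right (by norm_num) (by omega)
  have h3 : 4 ^ (i.val + 3) = 16 * 4 ^ (i.val + 1) := by rw [pow_add, pow_add]; ring
  simp only [pos, modulus]; omega

lemma pos_sep {i j : Fin N} (h : pos i ≤ pos j + 2 ∧ pos j ≤ pos i + 2) : i = j := by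
  by_contra hne
  rcases lt_or_gt_of_ne (fun e => hne (Fin.ext e) : i.val ≠ j.val) with hlt | hlt
  · have := Nat.pow_le_pow_right (show 1 ≤ 4 by norm_num) (show i.val + 1 + 1 ≤ j.val + 1 by omega)
    rw [pow_succ] at this
    have := (pos_le i).1
    simp only [pos] at *; omega
  · have := Nat.pow_le_pow_right (show 1 ≤ 4 by norm_num) (show j.val + 1 + 1 ≤ i.val + 1 by omega)
    rw [pow_succ] at this
    have := (pos_le j).1
    simp only [pos] at *; omega

/-- `mark i b` is the upper (`b`) or lower endpoint of pair `i`. -/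
def mark (i : Fin N) (b : Bool) : V (modulus N) := ((pos i + b.toNat : ℕ), 0)

lemma cast_inj {a b : ℕ} (ha : a < modulus N) (hb : b < modulus N)
    (h : (a : ZMod (modulus N)) = b) : a = b := by
  rwa [ZMod.natCast_eq_natCast_iff', Nat.mod_eq_of_lt ha, Nat.mod_eq_of_lt hb] at h

lemma mark_inj {i j : Fin N} {b c : Bool} (h : mark i b = mark j c) : i = j ∧ b = c := by
  have hi := pos_le i
  have hj := pos_le j
  have hb := Bool.toNat_le b
  have hc := Bool.toNat_le c
  have := cast_inj (by omega) (by omega) (congrArg Prod.fst h)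
  have hij : i = j := pos_sep (by omega)
  subst hij
  exact ⟨rfl, by cases b <;> cases c <;> simp_all⟩

/-- Adjacent marks. -/
def Adj (v w : V (modulus N)) : Prop := ∃ i b, v = mark i b ∧ w = mark i (!b)

lemma Adj.symm {v w : V (modulus N)} (h : Adj v w) : Adj w v := by
  obtain ⟨i, b, rfl, rfl⟩ := h; exact ⟨i, !b, rfl, by simp⟩

lemma Adj.unique {v w w' : V (modulus N)} (h : Adj v w) (h' : Adj v w') : w = w' := by
  obtain ⟨i, b, rfl, rfl⟩ := h
  obtain ⟨i', b', e, rfl⟩ := h'
  obtain ⟨rfl, rfl⟩ := mark_inj e
  rfl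

lemma mark_succ (i : Fin N) : mark i true = mark i false + e1 _ := by
  simp [mark, e1, Bool.toNat]

lemma rot_e1_real {j : ℕ} (hj : j < 6) (hm : 2 < modulus N)
    (h : ((rot (modulus N))^[j] (e1 _)).2 = 0) : j = 0 ∨ j = 3 := by
  have h1 : (1 : ZMod (modulus N)) ≠ 0 := by
    intro e
    have := cast_inj (N := N) (a := 1) (b := 0) (by omega) (by omega) (by simpa using e)
    omega
  interval_cases j <;> simp [Function.iterate_succ_apply', rot_apply, e1] at h ⊢ <;>
    exact h1 h

/-- A nontrivial symmetry cannot send three marked pairs to marks. -/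
lemma exists_unmarked (g : Tri (modulus N)) (hg : g ≠ 1) (i : Fin 3 → Fin N)
    (hi : Function.Injective i) :
    ∃ k b, ∀ j c, g.1 (mark (i k) b) ≠ mark j c := by
  by_contra! hall
  obtain ⟨r, hr, haff⟩ := tri_affine g.2
  have hm : 2 < modulus N := by
    have := pos_le (i 0); omega
  choose σ β hσ using hall
  have hd : ∀ k, g.1 (mark (i k) true) = g.1 (mark (i k) false) + (rot _)^[r] (e1 _) := by
    intro k
    rw [haff (mark (i k) true), haff (mark (i k) false), mark_succ, add_assoc]
    congr 1
    clear haff hr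
    induction r with
    | zero => rfl
    | succ r ih => simp only [Function.iterate_succ_apply', ih, map_add]
  have hreal : r = 0 ∨ r = 3 := by
    have h := hd 0
    rw [hσ, hσ] at h
    refine rot_e1_real hr hm ?_
    simpa [mark] using (congrArg Prod.snd h).symm
  have hlin : ∀ k b, mark (σ k b) (β k b) = g.1 0 + (rot _)^[r] (mark (i k) b) := fun k b => by
    rw [← hσ, haff]
  rcases hreal with rfl | rfl
  · -- translation
    have hk : ∀ k, β k false = false ∧ σ k true = σ k false := by
      intro k
      have h := hd k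
      rw [hσ, hσ] at h
      simp only [Function.iterate_zero, id] at h
      have h' := congrArg Prod.fst h
      simp only [mark, e1, Prod.fst_add] at h'
      have h1 := pos_le (σ k true); have h2 := pos_le (σ k false)
      have h3 := Bool.toNat_le (β k true); have h4 := Bool.toNat_le (β k false)
      have h5 := cast_inj (N := N) (a := pos (σ k true) + (β k true).toNat)
        (b := pos (σ k false) + (β k false).toNat + 1) (by omega) (by omega) (by push_cast at h' ⊢; exact h')
      have h6 : σ k true = σ k false := pos_sep (by omega)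
      rw [h6] at h5
      refine ⟨?_, h6⟩
      cases hb : β k false
      · rfl
      · rw [hb] at h5; simp at h5; omega
    have e0 := hlin 0 false
    have e1' := hlin 1 false
    rw [(hk 0).1] at e0
    rw [(hk 1).1] at e1'
    simp only [Function.iterate_zero, id] at e0 e1'
    have h : mark (σ 0 false) false + mark (i 1) false
        = mark (σ 1 false) false + mark (i 0) false := by rw [e0, e1']; abel
    have h' := congrArg Prod.fst h
    simp only [mark, Prod.fst_add, Bool.toNat_false, add_zero] at h'
    have h1 := pos_le (σ 0 false); have h2 := pos_le (σ 1 false)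
    have h3 := pos_le (i 0); have h4 := pos_le (i 1)
    have h5 := cast_inj (N := N) (a := pos (σ 0 false) + pos (i 1))
      (b := pos (σ 1 false) + pos (i 0)) (by omega) (by omega) (by push_cast; exact h')
    have hne : i 0 ≠ i 1 := fun e => absurd (hi e) (by decide)
    rcases four_pow_pair h5 with ⟨-, x⟩ | ⟨x, -⟩
    · exact hne (Fin.ext (by omega))
    · have hfix : σ 0 false = i 0 := Fin.ext (by omega)
      rw [hfix] at e0
      have h0 : g.1 0 = 0 := by simpa using e0.symm
      refine hg (Subtype.ext (Equiv.ext fun v => ?_))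
      rw [haff v, h0]; simp
  · -- reflection in a point
    have hk : ∀ k, β k false = true := by
      intro k
      have h := hd k
      rw [hσ, hσ, rot_three] at h
      have h' := congrArg Prod.fst h
      simp only [mark, e1, Prod.fst_add, Prod.fst_neg] at h'
      have h1 := pos_le (σ k true); have h2 := pos_le (σ k false)
      have h3 := Bool.toNat_le (β k true); have h4 := Bool.toNat_le (β k false)
      have h5 := cast_inj (N := N) (a := pos (σ k true) + (β k true).toNat + 1)
        (b := pos (σ k false) + (β k false).toNat) (by omega) (by omega)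
        (by push_cast at h' ⊢; rw [h']; ring)
      have h6 : σ k true = σ k false := pos_sep (by omega)
      rw [h6] at h5
      cases hb : β k false
      · rw [hb] at h5; simp at h5; omega
      · rfl
    have hsum : ∀ k l, ((i k).val = (i l).val ∧ (σ k false).val = (σ l false).val) ∨
        ((i k).val = (σ l false).val ∧ (σ k false).val = (i l).val) := by
      intro k l
      have ek := hlin k false
      have el := hlin l false
      rw [hk k, rot_three] at ek
      rw [hk l, rot_three] at el
      have h : mark (σ k false) true + mark (i k) false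
          = mark (σ l false) true + mark (i l) false := by rw [ek, el]; abel
      have h' := congrArg Prod.fst h
      simp only [mark, Prod.fst_add, Bool.toNat_false, Bool.toNat_true, add_zero] at h'
      have h1 := pos_le (σ k false); have h2 := pos_le (σ l false)
      have h3 := pos_le (i k); have h4 := pos_le (i l)
      have h5 := cast_inj (N := N) (a := pos (σ k false) + 1 + pos (i k))
        (b := pos (σ l false) + 1 + pos (i l)) (by omega) (by omega) (by push_cast at h' ⊢; exact h')
      rcases four_pow_pair (show pos (i k) + pos (σ k false) = pos (i l) + pos (σ l false) by omega)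
        with ⟨x, y⟩ | ⟨x, y⟩
      · exact Or.inl ⟨by omega, by omega⟩
      · exact Or.inr ⟨by omega, by omega⟩
    have n01 : i 0 ≠ i 1 := fun e => absurd (hi e) (by decide)
    have n02 : i 0 ≠ i 2 := fun e => absurd (hi e) (by decide)
    have n12 : i 1 ≠ i 2 := fun e => absurd (hi e) (by decide)
    rcases hsum 0 1 with ⟨x, -⟩ | ⟨-, x⟩
    · exact n01 (Fin.ext x)
    rcases hsum 0 2 with ⟨y, -⟩ | ⟨-, y⟩
    · exact n02 (Fin.ext y)
    exact n12 (Fin.ext (x.symm.trans y))

end Vale.Agent.P192
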