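import Vale.Agent.P192.FP
import Vale.Agent.P192.Torus
import Vale.Agent.P192.Separation

/-! Every finitely presented periodic group is commensurable up to finite powers with one
generated by an involution and an element of order three. -/

namespace Vale.Agent.P192

open Subgroup RegularWreathProduct

lemma exists_two_three {G : Type} [Group G] [Group.IsFinitelyPresented G]
    (htor : ∀ g : G, IsOfFinOrder g) :
    ∃ (H : Type) (_ : Group H) (_ : Group.IsFinitelyPresented H) (A B : H),
      A ^ 2 = 1 ∧ B ^ 3 = 1 ∧ Subgroup.closure {A, B} = ⊤ ∧ (∀ h : H, IsOfFinOrder h) ∧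
      (∀ e : ℕ, 0 < e → (∀ g : G, g ^ e = 1) → ∃ e', 0 < e' ∧ ∀ h : H, h ^ e' = 1) ∧
      (Finite H → Finite G) := by
  classical
  obtain ⟨d, φ, hφ, -⟩ := (inferInstance : Group.IsFinitelyPresented G).out
  have : Group.FG G := Group.fg_of_surjective (f := φ) hφ
  let gen : Fin d → G := fun l => φ (FreeGroup.of l)
  have hgen : Subgroup.closure (Set.range gen) = ⊤ := by
    have : Set.range gen = φ '' Set.range FreeGroup.of := by rw [← Set.range_comp]; rfl
    rw [this, ← MonoidHom.map_closure, FreeGroup.closure_range_of, Subgroup.map_top_of_surjective _ hφ]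
  let N := d * 3
  let m := modulus N
  have hm : 2 < m := by
    have : 4 ^ 1 ≤ 4 ^ (N + 3) := Nat.pow_le_pow_right (by norm_num) (by omega)
    simp only [m, modulus]; omega
  have : NeZero m := ⟨by omega⟩
  have : Fact (1 < m) := ⟨by omega⟩
  -- labels
  let lab : Fin d → Fin 3 → Fin N := fun l k => finProdFinEquiv (l, k)
  let val : Fin N → Bool → G := fun i b =>
    if b then (gen (finProdFinEquiv.symm i).1)⁻¹ else gen (finProdFinEquiv.symm i).1
  let Λ : V m → G := fun v =>
    if h : ∃ p : Fin N × Bool, v = mark p.1 p.2 then val h.choose.1 h.choose.2 else 1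
  have hΛ : ∀ i b, Λ (mark i b) = val i b := by
    intro i b
    have h : ∃ p : Fin N × Bool, mark i b = mark p.1 p.2 := ⟨(i, b), rfl⟩
    simp only [Λ, dif_pos h]
    obtain ⟨e1, e2⟩ := mark_inj h.choose_spec
    rw [← e1, ← e2]
  let f : (Tri m) → G := fun q => if Adj (q.1 0) (q.1 (e1 m)) then Λ (q.1 0) else 1
  have ha0 : ∀ q : (Tri m), (q * gA m).1 0 = q.1 (e1 m) := fun q => by
    rw [Subgroup.coe_mul, Equiv.Perm.mul_apply, gA_apply, sub_zero]
  have ha1 : ∀ q : (Tri m), (q * gA m).1 (e1 m) = q.1 0 := fun q => by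
    rw [Subgroup.coe_mul, Equiv.Perm.mul_apply, gA_apply, sub_self]
  have hfa : ∀ q, f q * f (q * gA m) = 1 := by
    intro q
    simp only [f, ha0, ha1]
    by_cases h : Adj (q.1 0) (q.1 (e1 m))
    · rw [if_pos h, if_pos h.symm]
      obtain ⟨i, b, e, e'⟩ := h
      rw [e, e', hΛ, hΛ]
      cases b <;> simp [val]
    · rw [if_neg h, if_neg (fun h' => h h'.symm), mul_one]
  let A : (G ≀ᵣ Tri m) := ⟨fun x => f x⁻¹, gA m⟩
  let B : (G ≀ᵣ Tri m) := RegularWreathProduct.inl (gB m)
  have hA : A * A = 1 := by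
    refine RegularWreathProduct.ext (funext fun x => ?_) gA_sq
    simpa [A, mul_inv_rev] using hfa x⁻¹
  have hB : B * B * B = 1 := by
    simp only [B, ← map_mul, gB_cube, map_one]
  let C := A * B
  have hCr : C.right = gC m := rfl
  have hCl : ∀ x, C.left x = f x⁻¹ := fun x => by simp [C, A, B]
  have hCpow : ∀ (n : ℕ) x, (C ^ n).right = gC m ^ n ∧
      (C ^ n).left x = ((List.range n).map fun i => f (x⁻¹ * gC m ^ i)).prod := by
    intro n
    induction n with
    | zero => intro x; simp
    | succ n ih =>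
      intro x
      obtain ⟨hr, hl⟩ := ih x
      refine ⟨by rw [pow_succ, mul_right, hr, hCr, pow_succ], ?_⟩
      rw [pow_succ, mul_left, Pi.mul_apply, hl, hr, hCl, List.range_succ]
      simp [mul_inv_rev]
  have hc0 : ∀ i : ℕ, (gC m ^ i).1 0 = 0 := fun i => by rw [gC_pow_apply, rot_iter_zero]
  have rot_inj6 : ∀ i j, i < 6 → j < 6 → (rot m)^[i] (e1 m) = (rot m)^[j] (e1 m) → i = j := by
    have h1 : (1 : ZMod m) ≠ 0 := one_ne_zero
    have h2 : (1 : ZMod m) ≠ -1 := by
      intro e
      have e2 : ((2 : ℕ) : ZMod m) = ((0 : ℕ) : ZMod m) := by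
        push_cast; linear_combination e
      have := cast_inj (N := N) (a := 2) (b := 0) hm (by omega) e2
      omega
    intro i j hi hj h
    interval_cases i <;> interval_cases j <;>
      simp [Function.iterate_succ_apply', rot_apply, e1, h1, h2, Ne.symm h1, Ne.symm h2] at h ⊢
  -- the coordinates of the sixth power of `A * B`
  have hsix : ∀ y : (Tri m), ((List.range 6).map fun i => f (y * gC m ^ i)).prod = Λ (y.1 0) := by
    intro y
    have hterm : ∀ i, f (y * gC m ^ i) =
        if Adj (y.1 0) (y.1 ((rot m)^[i] (e1 m))) then Λ (y.1 0) else 1 := fun i => by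
      simp only [f, Subgroup.coe_mul, Equiv.Perm.mul_apply, hc0, gC_pow_apply]
    simp only [hterm]
    by_cases hex : ∃ p : Fin N × Bool, y.1 0 = mark p.1 p.2
    · obtain ⟨⟨i, b⟩, hv⟩ := hex
      obtain ⟨j, hj, haff⟩ := tri_affine y.2
      have hw : ∃ i0, i0 < 6 ∧ y.1 ((rot m)^[i0] (e1 m)) = mark i (!b) := by
        refine ⟨((if b then 3 else 0) + 6 - j) % 6, Nat.mod_lt _ (by norm_num), ?_⟩
        rw [haff, ← Function.iterate_add_apply, hv]
        interval_cases j <;> cases b <;>
          simp [Function.iterate_succ_apply', rot_apply, e1, mark, ← sub_eq_add_neg]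
      obtain ⟨i0, hi0, hw⟩ := hw
      have hadj : Adj (y.1 0) (y.1 ((rot m)^[i0] (e1 m))) := ⟨i, b, hv, hw⟩
      have hiff : ∀ k, k < 6 → (Adj (y.1 0) (y.1 ((rot m)^[k] (e1 m))) ↔ k = i0) := fun k hk =>
        ⟨fun h => rot_inj6 k i0 hk hi0 (y.1.injective (h.unique hadj)), fun h => h ▸ hadj⟩
      simp only [List.range_succ, List.range_zero, List.nil_append, List.cons_append, List.map_cons,
        List.map_nil, List.prod_cons, List.prod_nil,
        hiff 0 (by norm_num), hiff 1 (by norm_num), hiff 2 (by norm_num), hiff 3 (by norm_num),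
        hiff 4 (by norm_num), hiff 5 (by norm_num)]
      interval_cases i0 <;> simp
    · have h0 : Λ (y.1 0) = 1 := by simp only [Λ, dif_neg hex]
      simp [h0]
  let H : Subgroup (G ≀ᵣ Tri m) := Subgroup.closure {A, B}
  have hAH : A ∈ H := subset_closure (by simp)
  have hBH : B ∈ H := subset_closure (by simp)
  have hCH : C ∈ H := H.mul_mem hAH hBH
  -- lifts trivial at a given coordinate
  have lift : ∀ (x q : (Tri m)), ∃ h ∈ H, h.right = q ∧ h.left x = 1 := by
    intro x q
    have stepB : ∀ q : (Tri m), (∃ h ∈ H, h.right = q ∧ h.left x = 1) →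
        ∃ h ∈ H, h.right = q * gB m ∧ h.left x = 1 := by
      rintro q ⟨h, hh, hr, hl⟩
      exact ⟨h * B, H.mul_mem hh hBH, by simp [hr, B], by simp [hl, B]⟩
    have stepA : ∀ q : (Tri m), (∃ h ∈ H, h.right = q ∧ h.left x = 1) →
        ∃ h ∈ H, h.right = q * gA m ∧ h.left x = 1 := by
      rintro q ⟨h, hh, hr, hl⟩
      by_cases hf : f (x⁻¹ * q) = 1
      · exact ⟨h * A, H.mul_mem hh hAH, by simp [hr, A], by simp [hl, hr, A, mul_inv_rev, hf]⟩
      · have hadj : Adj ((x⁻¹ * q).1 0) ((x⁻¹ * q).1 (e1 m)) := by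
          by_contra h'; exact hf (if_neg h')
        refine ⟨h * B * C ^ 5, H.mul_mem (H.mul_mem hh hBH) (H.pow_mem hCH 5), ?_, ?_⟩
        · have h5 : gC m ^ 5 = (gC m)⁻¹ := by
            rw [eq_inv_iff_mul_eq_one, ← pow_succ, gC_six]
          rw [mul_right, mul_right, (hCpow 5 1).1, hr, h5]
          simp only [B, gC, RegularWreathProduct.right_inl]
          rw [mul_inv_rev, mul_assoc q, ← mul_assoc (gB m), mul_inv_cancel, one_mul,
            inv_eq_iff_mul_eq_one.mpr gA_sq]
        · have h1 : (h * B).left x = 1 := by simp [hl, B]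
          rw [mul_left, Pi.mul_apply, h1, one_mul, (hCpow 5 _).2]
          refine List.prod_eq_one fun g hg => ?_
          obtain ⟨i, hi, rfl⟩ := List.mem_map.mp hg
          rw [List.mem_range] at hi
          simp only [f]
          refine if_neg fun hadj' => ?_
          have key : (((h * B).right⁻¹ * x)⁻¹ * gC m ^ i : (Tri m)) = x⁻¹ * q * gA m * gC m ^ (i + 1) := by
            have hB' : gB m = gA m * gC m := by rw [gC, ← mul_assoc, gA_sq, one_mul]
            rw [mul_right, hr, show B.right = gB m from rfl, mul_inv_rev, inv_inv, hB', pow_succ']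
            simp only [mul_assoc]
          rw [key] at hadj'
          simp only [Subgroup.coe_mul, Equiv.Perm.mul_apply, hc0, gC_pow_apply, gA_apply, sub_zero]
            at hadj'
          have h2 := hadj'.unique hadj.symm
          simp only [Subgroup.coe_mul, Equiv.Perm.mul_apply] at h2
          have h3 := (x⁻¹ : (Tri m)).1.injective h2
          have h4 := q.1.injective h3
          rw [sub_eq_zero] at h4
          have := rot_inj6 0 (i + 1) (by norm_num) (by omega) h4
          omega
    suffices hall : ∀ (g : Equiv.Perm (V m)) (hg : g ∈ Tri m),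
        ∃ h ∈ H, h.right = ⟨g, hg⟩ ∧ h.left x = 1 from hall q.1 q.2
    intro g hg
    induction hg using Subgroup.closure_induction_right with
    | one => exact ⟨1, H.one_mem, rfl, rfl⟩
    | mul_right y hy z hz ih =>
      rcases hz with rfl | rfl
      · exact stepA ⟨y, hy⟩ ih
      · exact stepB ⟨y, hy⟩ ih
    | mul_inv_cancel y hy z hz ih =>
      rcases hz with rfl | rfl
      · obtain ⟨h, hh, hr, hl⟩ := stepA ⟨y, hy⟩ ih
        refine ⟨h, hh, hr.trans ?_, hl⟩
        apply Subtype.ext
        have : gA m = (gA m)⁻¹ := eq_inv_iff_mul_eq_one.mpr gA_sq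
        exact congrArg (y * ·) (congrArg Subtype.val this)
      · obtain ⟨h, hh, hr, hl⟩ := stepB _ (stepB ⟨y, hy⟩ ih)
        refine ⟨h, hh, hr.trans ?_, hl⟩
        apply Subtype.ext
        have : gB m * gB m = (gB m)⁻¹ := eq_inv_iff_mul_eq_one.mpr gB_cube
        simp only [Subgroup.coe_mul, mul_assoc]
        exact congrArg (y * ·) (congrArg Subtype.val this)
  -- the base group
  let ι : ((Tri m) → G) →* (G ≀ᵣ Tri m) :=
    { toFun := fun u => ⟨u, 1⟩
      map_one' := rfl
      map_mul' := fun u v => RegularWreathProduct.ext (funext fun x => by simp) (by simp) }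
  have hι : Function.Injective ι := fun u v h => congrArg RegularWreathProduct.left h
  have hrange : ι.range = (RegularWreathProduct.rightHom : (G ≀ᵣ Tri m) →* (Tri m)).ker := by
    ext w
    constructor
    · rintro ⟨u, rfl⟩; rfl
    · intro hw; exact ⟨w.left, RegularWreathProduct.ext rfl (Eq.symm hw)⟩
  let K := H.comap ι
  have hk6 : ∀ x, (C ^ 6).left x = Λ ((x⁻¹ : (Tri m)).1 0) := fun x => by rw [(hCpow 6 x).2, hsix]
  have hk6r : (C ^ 6).right = 1 := by rw [(hCpow 6 1).1, gC_six]
  have hpairs : ∀ x1 x2 : (Tri m), x1 ≠ x2 → proj K x1 {x2} = ⊤ := by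
    intro x1 x2 hne
    rw [eq_top_iff, ← hgen, Subgroup.closure_le]
    rintro _ ⟨l, rfl⟩
    have hlab : Function.Injective (lab l) := fun k k' h =>
      (Prod.mk.inj (finProdFinEquiv.injective h)).2
    obtain ⟨k, b, hun⟩ :=
      exists_unmarked (x2⁻¹ * x1) (fun h => hne (inv_mul_eq_one.mp h).symm) (lab l) hlab
    obtain ⟨p, hp⟩ := transitive (mark (lab l k) b)
    obtain ⟨h, hh, hr, hl⟩ := lift x1 (x1 * p)
    have hconj : ∀ x, (h * C ^ 6 * h⁻¹).left x
        = h.left x * Λ ((x⁻¹ * (x1 * p) : (Tri m)).1 0) * (h.left x)⁻¹ := fun x => by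
      simp only [mul_left, mul_right, inv_left, Pi.mul_apply, hk6r, mul_one, hk6, hr,
        mul_inv_rev, inv_inv, Pi.inv_apply]
      congr 3
      group
    have hmem : val (lab l k) b ∈ proj K x1 {x2} := by
      refine mem_proj.mpr ⟨(h * C ^ 6 * h⁻¹).left, ?_, ?_, ?_⟩
      · have e : ι (h * C ^ 6 * h⁻¹).left = h * C ^ 6 * h⁻¹ :=
          RegularWreathProduct.ext rfl (by simp [hk6r, ι])
        change ι _ ∈ H
        rw [e]
        exact H.mul_mem (H.mul_mem hh (H.pow_mem hCH 6)) (H.inv_mem hh)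
      · intro z hz
        obtain rfl := Finset.mem_singleton.mp hz
        have h0 : Λ ((z⁻¹ * (x1 * p) : (Tri m)).1 0) = 1 := by
          simp only [Λ]
          refine dif_neg ?_
          rintro ⟨⟨i, c⟩, he⟩
          refine hun i c ?_
          rw [← mul_assoc, Subgroup.coe_mul, Equiv.Perm.mul_apply, hp] at he
          exact he
        rw [hconj, h0]; simp
      · rw [hconj, hl, inv_mul_cancel_left, hp, hΛ]; simp
    have hl' : (finProdFinEquiv.symm (lab l k)).1 = l :=
      congrArg Prod.fst (finProdFinEquiv.symm_apply_apply (l, k))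
    cases b
    · simp only [val, hl'] at hmem; simpa using hmem
    · simp only [val, hl'] at hmem; simpa using inv_mem hmem
  have : Nontrivial (Tri m) := ⟨gA m, 1, fun h => by
    have := congrArg (fun q : (Tri m) => (q.1 0).1) h
    simp [gA_apply, e1] at this⟩
  have hK : K.FiniteIndex := finiteIndex_of_pairs htor K hpairs
  have hHfi : H.FiniteIndex := by
    have : (K.map ι).FiniteIndex := ⟨by
      rw [Subgroup.index_map_of_injective K hι]
      refine mul_ne_zero hK.index_ne_zero ?_
      rw [hrange]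
      exact FiniteIndex.index_ne_zero⟩
    exact Subgroup.finiteIndex_of_le (map_comap_le ι H)
  have := piFP' G (Tri m)
  have : Group.IsFinitelyPresented (G ≀ᵣ Tri m) :=
    extension RegularWreathProduct.rightHom (fun q => ⟨RegularWreathProduct.inl q, rfl⟩) ι hι hrange
  have : Fintype (Tri m) := Fintype.ofFinite (Tri m)
  have hcard : ∀ w : (G ≀ᵣ Tri m), ∃ u, w ^ Fintype.card (Tri m) = ι u := fun w => by
    have : w ^ Fintype.card (Tri m) ∈ (RegularWreathProduct.rightHom : (G ≀ᵣ Tri m) →* (Tri m)).ker := by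
      rw [MonoidHom.mem_ker, map_pow, pow_card_eq_one]
    rw [← hrange] at this
    obtain ⟨u, hu⟩ := this
    exact ⟨u, hu.symm⟩
  refine ⟨H, inferInstance, finiteIndexFP H, ⟨A, hAH⟩, ⟨B, hBH⟩, ?_, ?_, ?_, ?_, ?_, ?_⟩
  · apply Subtype.ext; simpa [pow_two] using hA
  · apply Subtype.ext; simpa [pow_succ] using hB
  · have : ({⟨A, hAH⟩, ⟨B, hBH⟩} : Set H) = ((↑) : H → (G ≀ᵣ Tri m)) ⁻¹' {A, B} := by
      ext ⟨w, hw⟩; simp
    rw [this]; exact Subgroup.closure_closure_coe_preimage
  · intro w
    rw [← Submonoid.isOfFinOrder_coe]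
    obtain ⟨u, hu⟩ := hcard w.1
    have hu' : IsOfFinOrder u := by
      refine isOfFinOrder_iff_pow_eq_one.mpr ⟨∏ x, orderOf (u x),
        Finset.prod_pos (fun x _ => (htor (u x)).orderOf_pos), funext fun x => ?_⟩
      obtain ⟨c, hc⟩ := Finset.dvd_prod_of_mem (fun x => orderOf (u x)) (Finset.mem_univ x)
      rw [Pi.pow_apply, hc, pow_mul, pow_orderOf_eq_one, one_pow, Pi.one_apply]
    have := MonoidHom.isOfFinOrder ι hu'
    rw [← hu] at this
    exact this.of_pow (Fintype.card_ne_zero)
  · intro e he hexp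
    refine ⟨Fintype.card (Tri m) * e, Nat.mul_pos Fintype.card_pos he, fun w => Subtype.ext ?_⟩
    obtain ⟨u, hu⟩ := hcard w.1
    rw [Subgroup.coe_pow, pow_mul, hu, ← map_pow,
      show u ^ e = 1 from funext fun x => hexp (u x), map_one, Subgroup.coe_one]
  · intro hfin
    have : Finite ((G ≀ᵣ Tri m) ⧸ H) := H.finite_quotient_of_finiteIndex
    have : Finite (G ≀ᵣ Tri m) := Finite.of_equiv _ (Subgroup.groupEquivQuotientProdSubgroup (s := H)).symm
    exact Finite.of_injective (fun g : G => ι (Pi.mulSingle 1 g))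
      (fun g g' h => Pi.mulSingle_injective 1 (hι h))

end Vale.Agent.P192
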